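import Vale.Agent.P226.Main

open MeasureTheory ProbabilityTheory Set Real

namespace Vale.Agent.Results.P226.Propeller

/-- The Gaussian propeller conjecture (Khot–Naor). -/
theorem result (d k : ℕ) (A : Fin k → Set (EuclideanSpace ℝ (Fin d)))
    (hA : ∀ i, MeasurableSet (A i))
    (hdisj : ∀ i j, i ≠ j → stdGaussian (EuclideanSpace ℝ (Fin d)) (A i ∩ A j) = 0)
    (hcover : stdGaussian (EuclideanSpace ℝ (Fin d)) (⋃ i, A i)ᶜ = 0) :
    ∑ i, ‖∫ x in A i, x ∂stdGaussian (EuclideanSpace ℝ (Fin d))‖^2 ≤ 9 / (8 * π) := by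
  classical
  set γ := stdGaussian (EuclideanSpace ℝ (Fin d)) with hγ
  set w : Fin k → EuclideanSpace ℝ (Fin d) → ℝ := fun i => (A i).indicator 1 with hw
  have h1 : ∀ᵐ x ∂γ, ∑ i, w i x = 1 := by
    have hc : ∀ᵐ x ∂γ, x ∈ ⋃ i, A i := ae_iff.mpr hcover
    have hd : ∀ᵐ x ∂γ, ∀ i j, i ≠ j → x ∉ A i ∩ A j := by
      refine ae_all_iff.mpr fun i => ae_all_iff.mpr fun j => ?_
      by_cases hij : i = j
      · exact ae_of_all _ fun x h => absurd hij h
      · exact (measure_eq_zero_iff_ae_notMem.mp (hdisj i j hij)).mono fun x hx _ => hx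
    filter_upwards [hc, hd] with x hx1 hx2
    obtain ⟨i, hi⟩ := mem_iUnion.mp hx1
    rw [Finset.sum_eq_single i (fun j _ hj => indicator_of_notMem (fun h => hx2 j i hj ⟨h, hi⟩) _)
      (fun h => absurd (Finset.mem_univ i) h)]
    simp [hi]
  have e : ∀ i, ∫ x in A i, x ∂γ = ∫ x, w i x • x ∂γ := fun i => by
    rw [← integral_indicator (hA i)]
    refine integral_congr_ae (ae_of_all _ fun x => ?_)
    by_cases hx : x ∈ A i <;> simp [hw, hx]
  simp only [e]
  exact Vale.P226.moments_bound d k w (fun i => measurable_one.indicator (hA i))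
    (fun i => ae_of_all _ fun x => by by_cases hx : x ∈ A i <;> simp [hw, hx]) h1

end Vale.Agent.Results.P226.Propeller
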